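import Vale.Agent.P057DM.Cov
import Vale.Agent.P057AS.Plan
import Vale.Agent.P057MA.Lift
import Vale.Agent.P057TE.Thb

/-!
Splitting of the extra coordinates along transversals: the algebra.
-/

set_option linter.all false

open Matrix Finset Real
open Vale.Agent.P267.H775 Vale.Agent.P057G Vale.Agent.P057PC Vale.Agent.P057TP Vale.Agent.P057MA
open Vale.Agent.P057SY Vale.Agent.P057AS
open Vale.Agent.P057TE (ez)

namespace Vale.Agent.P057DM

noncomputable section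

open Classical

theorem alt_two {V ι : Type} [DecidableEq V] [Fintype ι] [DecidableEq ι] {S : MS V ι} {I : Finset V}
    {v v' : V} (hv : v ∈ I) (hv' : v' ∈ I) (ne : v ≠ v') (hd : Disjoint (S.st v) (S.st v'))
    {θ : (ι → ℝ) → ℝ} (h : Aff (S.st v ∪ S.st v') θ) (z : ι → ℝ) : S.alt I θ z = 0 := by
  have h1 : v' ∈ I.erase v := mem_erase.2 ⟨ne.symm, hv'⟩
  rw [← insert_erase hv, MS.alt_insert (notMem_erase _ _), ← insert_erase h1,
    MS.alt_insert (notMem_erase _ _), MS.alt_insert (notMem_erase _ _)]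
  have k := MS.aff_alt (S := S) h ((I.erase v).erase v') z
  have e : ∀ w : ι → ℝ, (∀ i ∉ S.st v ∪ S.st v', w i = z i) → mix (S.st v ∪ S.st v') w z = w :=
    fun w hw => funext fun i => by
      by_cases a : i ∈ S.st v ∪ S.st v'
      exacts [mix_pos _ _ a, (mix_neg _ _ a).trans (hw i a).symm]
  have e0 : mix (S.st v ∪ S.st v') 0 z = mix (S.st v') 0 (mix (S.st v) 0 z) := funext fun i => by
    by_cases a : i ∈ S.st v <;> by_cases b : i ∈ S.st v' <;> simp [mix, a, b]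
  have e1 : mix (S.st v ∪ S.st v') (mix (S.st v) 0 z + mix (S.st v') 0 z) z = z := funext fun i => by
    by_cases a : i ∈ S.st v <;> by_cases b : i ∈ S.st v' <;> simp [mix, a, b]
    exact (disjoint_left.1 hd a b).elim
  have k1 := k.map_add (mix (S.st v) 0 z) (mix (S.st v') 0 z)
  rw [e1, e0, e _ fun i hi => mix_neg _ _ fun a => hi (mem_union_left _ a),
    e _ fun i hi => mix_neg _ _ fun a => hi (mem_union_right _ a)] at k1
  linarith

variable {T : Tow} {C W : Type} [Fintype C] [DecidableEq C] [Fintype W] [DecidableEq W]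
  {cl : W → C} {m : ℕ} {ι Λ : Type} [Fintype ι] [DecidableEq ι]

theorem none_fo {l : Lb T cl Unit m} : none ∈ fo l ↔ l.bs ≠ none := by
  unfold fo; split_ifs with h <;> simp [h]

theorem some_fo {l : Lb T cl Unit m} {w : W} : some w ∈ fo l ↔ w ∈ l.fc := by
  unfold fo; split_ifs with h <;> simp

/-- the data -/
structure Dt (T : Tow) (cl : W → C) (m : ℕ) (ι Λ : Type) where
  S : MS (Option C) ι
  ex : Finset ι
  lab : Λ → ι
  β : Λ → Lb T cl Unit m
  r : Λ → ℤ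
  md : Λ → ℤ
  w0 : C → W

namespace Dt

variable (D : Dt T cl m ι Λ)

structure Ok : Prop where
  ok : D.S.Ok
  cen : D.S.Cen
  w0 : ∀ c, cl (D.w0 c) = c
  nt : ∀ j ∈ D.ex, none ∉ D.S.fc j
  inj : D.lab.Injective
  rng : ∀ i, i ∈ D.ex ↔ i ∉ Set.range D.lab
  fc : ∀ j, (D.β j).Pure ∧ D.S.fc (D.lab j) = (fo (D.β j)).image (Option.map cl)

/-- admissible pairs -/
def Pr (a : D.ex × (C → W)) : Prop := Rd cl D.w0 (D.S.fc a.1) a.2

/-- the new extra coordinates -/
abbrev E : Type := {a // D.Pr a}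

/-- copies of the Gram matrix -/
def Gb : Matrix (D.ex × (C → W)) (D.ex × (C → W)) ℝ :=
  of fun a b => if a.2 = b.2 then D.S.G a.1 b.1 else 0

/-- the part of a label on a transversal -/
def lb (x : Lb T cl Unit m ⊕ D.E → ℝ) (χ : C → W) (k : Λ) : ℝ :=
  (if ∀ c, some c ∈ D.S.fc (D.lab k) → χ c = D.w0 c then (D.r k : ℝ) else 0) +
    if ∀ w ∈ (D.β k).fc, χ (cl w) = w then D.md k * x (Sum.inl (D.β k)) else 0

/-- the part of the point on a transversal -/
def uu (x : Lb T cl Unit m ⊕ D.E → ℝ) (χ : C → W) (i : ι) : ℝ :=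
  if h : i ∈ D.ex then ez D.Pr (x ∘ Sum.inr) (⟨i, h⟩, rd D.w0 (D.S.fc i) χ)
  else Function.extend D.lab (D.lb x χ) 0 i

/-- the point -/
def xr (x : Lb T cl Unit m ⊕ D.E → ℝ) (i : ι) : ℝ := sr cl D.w0 (D.S.fc i) fun χ => D.uu x χ i

/-- the extra coordinates on faces of vertices -/
def X : Xt (Option W) (Lb T cl Unit m) D.E where
  fc e := (univ.filter fun c => some c ∈ D.S.fc e.1.1).image fun c => some (e.1.2 c)
  tr e := D.S.lv e.1.1
  G := bk D.Gb D.Pr
  g x e := D.S.p (D.uu x e.1.2) e.1.1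

/-- the coordinates that meet a class -/
def cst (o : Option C) : Finset (Lb T cl Unit m ⊕ D.E) :=
  univ.filter fun a => o ∈ ((xt (sk T cl m) D.X).fc a).image (Option.map cl)

/-- the sum over the copies -/
def col (v : D.E → ℝ) (j : D.ex) : ℝ := ∑ χ, ez D.Pr v (j, χ)

variable {D} {x x' : Lb T cl Unit m ⊕ D.E → ℝ} {χ χ' : C → W} {i : ι}

theorem mem_X {e : D.E} {v : Option W} :
    v ∈ D.X.fc e ↔ ∃ c, some c ∈ D.S.fc e.1.1 ∧ some (e.1.2 c) = v := by simp [X]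

theorem none_X (e : D.E) : none ∉ D.X.fc e := by simp [mem_X]

theorem st_sub (v : Option W) : (xt (sk T cl m) D.X).st v ⊆ D.cst (v.map cl) := fun a ha =>
  mem_filter.2 ⟨mem_univ _, mem_image_of_mem _ ((MS.mem_st _).1 ha)⟩

theorem inj_fc (a : Lb T cl Unit m ⊕ D.E) {w w' : W} (h : some w ∈ (xt (sk T cl m) D.X).fc a)
    (h' : some w' ∈ (xt (sk T cl m) D.X).fc a) (e : cl w = cl w') : w = w' := by
  rcases a with l | a
  · exact l.2.2.1 (some_fo.1 h) (some_fo.1 h') e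
  · obtain ⟨c, -, k⟩ := mem_X.1 h
    obtain ⟨c', -, k'⟩ := mem_X.1 h'
    rw [← Option.some.inj k, ← Option.some.inj k', a.2.1, a.2.1] at e
    rw [← Option.some.inj k, ← Option.some.inj k', e]

namespace Ok

variable (h : D.Ok)
include h

theorem cas (i : ι) : i ∈ D.ex ∨ ∃ k, D.lab k = i := by
  by_contra k
  exact k (Or.inl ((h.rng i).2 fun e => k (Or.inr e)))

theorem nex (k : Λ) : D.lab k ∉ D.ex := fun e => (h.rng _).1 e ⟨k, rfl⟩

theorem uu_lab (k : Λ) : D.uu x χ (D.lab k) = D.lb x χ k := by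
  rw [uu, dif_neg (h.nex k), h.inj.extend_apply]

theorem mem_lab {k : Λ} {c : C} : some c ∈ D.S.fc (D.lab k) ↔ ∃ w ∈ (D.β k).fc, cl w = c := by
  rw [(h.fc k).2, mem_image]
  refine ⟨fun ⟨v, h1, h2⟩ => ?_, fun ⟨w, h1, h2⟩ => ⟨some w, some_fo.2 h1, congrArg some h2⟩⟩
  cases v with
  | none => cases h2
  | some w => exact ⟨w, some_fo.1 h1, Option.some.inj h2⟩

theorem img (e : D.E) : (D.X.fc e).image (Option.map cl) = D.S.fc e.1.1 := by
  ext o
  simp only [mem_image, mem_X]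
  refine ⟨fun ⟨_, ⟨c, h1, rfl⟩, h2⟩ => ?_, fun k => ?_⟩
  · rw [← h2, Option.map_some, e.2.1 c]; exact h1
  · cases o with
    | none => exact (h.nt _ e.1.1.2 k).elim
    | some c => exact ⟨_, ⟨c, k, rfl⟩, congrArg some (e.2.1 c)⟩

theorem uu_congr
    (h1 : ∀ k, D.lab k = i → (∀ w ∈ (D.β k).fc, χ (cl w) = w) →
      x (Sum.inl (D.β k)) = x' (Sum.inl (D.β k)))
    (h2 : ∀ e : D.E, e.1.1 = i → e.1.2 = rd D.w0 (D.S.fc i) χ → x (Sum.inr e) = x' (Sum.inr e)) :
    D.uu x χ i = D.uu x' χ i := by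
  rcases h.cas i with k | ⟨k, rfl⟩
  · rw [uu, uu, dif_pos k, dif_pos k, ez, ez]
    split_ifs with e
    exacts [h2 ⟨_, e⟩ rfl rfl, rfl]
  · rw [h.uu_lab, h.uu_lab, lb, lb]
    congr 1
    split_ifs with e
    exacts [by rw [h1 k rfl e], rfl]

theorem uu_chi (e : ∀ c, some c ∈ D.S.fc i → χ c = χ' c) : D.uu x χ i = D.uu x χ' i := by
  rcases h.cas i with k | ⟨k, rfl⟩
  · rw [uu, uu, dif_pos k, dif_pos k, show rd D.w0 (D.S.fc i) χ = rd D.w0 (D.S.fc i) χ' from
      funext fun c => if_ctx_congr Iff.rfl (e c) fun _ => rfl]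
  · rw [h.uu_lab, h.uu_lab, lb, lb]
    congr 1
    · exact if_congr (forall₂_congr fun c k => by rw [e c k]) rfl rfl
    · exact if_congr (forall₂_congr fun w k => by rw [e _ (h.mem_lab.2 ⟨w, k, rfl⟩)]) rfl rfl

theorem aff_uu (r : Finset (Lb T cl Unit m ⊕ D.E)) (χ : C → W) (i : ι) :
    Aff r fun x => D.uu x χ i := by
  rcases h.cas i with k | ⟨k, rfl⟩
  · simp only [uu, dif_pos k, ez]
    split_ifs with e
    exacts [aff_coord _ _, aff_const _ _]
  · simp only [h.uu_lab, lb]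
    refine aff_add (aff_const _ _) ?_
    split_ifs with e
    exacts [aff_smul (aff_coord _ _) _, aff_const _ _]

theorem uu_mix {r : Finset (Lb T cl Unit m ⊕ D.E)} {o : Option C} (hr : r ⊆ D.cst o)
    (hi : i ∉ D.S.st o) : D.uu (mix r x x') χ i = D.uu x' χ i := by
  refine h.uu_congr (fun k e _ => mix_neg _ _ fun a => hi ?_) fun a e _ => mix_neg _ _ fun b => hi ?_
  · rw [MS.mem_st, ← e, (h.fc k).2]; exact (mem_filter.1 (hr a)).2
  · rw [MS.mem_st, ← e, ← h.img]; exact (mem_filter.1 (hr b)).2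

theorem aff_u {r : Finset (Lb T cl Unit m ⊕ D.E)} {o : Option C} (hr : r ⊆ D.cst o)
    {θ : (ι → ℝ) → ℝ} (hθ : Aff (D.S.st o) θ) (χ : C → W) : Aff r fun x => θ (D.uu x χ) :=
  aff_comp (q := univ) (fun _ _ e => congrArg θ (funext fun i => e i (mem_univ i))) hθ
    (fun i _ _ => h.aff_uu r χ i) fun _ _ hi _ _ => h.uu_mix hr hi

theorem aff_x {r : Finset (Lb T cl Unit m ⊕ D.E)} {o : Option C} (hr : r ⊆ D.cst o)
    {θ : (ι → ℝ) → ℝ} (hθ : Aff (D.S.st o) θ) : Aff r fun x => θ (D.xr x) :=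
  aff_comp (q := univ) (fun _ _ e => congrArg θ (funext fun i => e i (mem_univ i))) hθ
    (fun i _ _ => aff_sum _ fun χ _ => h.aff_uu r χ i)
    fun _ _ hi _ _ => sum_congr rfl fun _ _ => h.uu_mix hr hi

theorem loc (e : D.E) (x x' : Lb T cl Unit m ⊕ D.E → ℝ)
    (h1 : ∀ l, fo l ⊆ D.X.fc e → x (Sum.inl l) = x' (Sum.inl l))
    (h2 : ∀ e', D.X.fc e' ⊆ D.X.fc e → D.X.tr e' < D.X.tr e → x (Sum.inr e') = x' (Sum.inr e')) :
    D.X.g x e = D.X.g x' e := by
  refine h.ok.loc _ _ _ fun i hi => h.uu_congr (fun k a b => h1 _ fun v hv => ?_)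
    fun a b d => h2 a (fun v hv => ?_) (by have := hi.2; rwa [← b] at this)
  · have k1 : v.map cl ∈ D.S.fc e.1.1 := hi.1 (by rw [← a, (h.fc k).2]; exact mem_image_of_mem _ hv)
    cases v with
    | none => exact (h.nt _ e.1.1.2 k1).elim
    | some w => exact mem_X.2 ⟨_, k1, congrArg some (b w (some_fo.1 hv))⟩
  · obtain ⟨c, k1, rfl⟩ := mem_X.1 hv
    rw [b] at k1
    exact mem_X.2 ⟨c, hi.1 k1, by rw [d, rd, if_pos k1]⟩

theorem pd_Gb : D.Gb.PosDef := by
  have h1 := (posDef_blk h.ok.pd D.ex).kronecker (PosDef.one (n := C → W) (R := ℝ))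
  have h2 : D.Gb = kroneckerMap (· * ·) (blk D.S.G D.ex) (1 : Matrix (C → W) (C → W) ℝ) := by
    ext a b
    simp [Gb, one_apply, blk]
  rw [h2]
  exact h1

theorem ort (e e' : D.E) (k : D.X.G e e' ≠ 0) :
    e.1.2 = e'.1.2 ∧ D.S.fc e.1.1 = D.S.fc e'.1.1 ∧ D.S.lv e.1.1 = D.S.lv e'.1.1 := by
  have h1 : e.1.2 = e'.1.2 := by
    by_contra h1; exact k (if_neg h1)
  exact ⟨h1, h.ok.orth _ _ fun h0 => k ((if_pos h1).trans h0)⟩

theorem xok : D.X.Ok (sk T cl m) := by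
  refine ⟨fun e => ?_, posDef_bk h.pd_Gb _, fun e e' k => ?_, h.loc,
    fun v e => h.aff_u (st_sub v) (aff_p h.ok _ _) _⟩
  · have := h.cen.ne e.1.1
    rw [← h.img] at this
    exact this.of_image
  · obtain ⟨h1, h2, h3⟩ := h.ort e e' k
    exact ⟨by simp only [X, h1, h2], h3⟩

theorem dg {L : (ι → ℝ) → ℝ} (hL : ∀ o, Aff (D.S.st o) L) : Dg D.X (Fintype.card C + 1) fun x =>
    L (D.xr x) - L (D.xr (mix ((xt (sk T cl m) D.X).st none) 0 x)) := by
  have on : ∀ x x' : Lb T cl Unit m ⊕ D.E → ℝ, (∀ l, l.Pure → x (Sum.inl l) = x' (Sum.inl l)) →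
      (∀ e, x (Sum.inr e) = x' (Sum.inr e)) → D.xr x = D.xr x' := fun x x' h1 h2 =>
    funext fun i => sum_congr rfl fun χ _ => h.uu_congr (fun k _ _ => h1 _ (h.fc k).1)
      fun e _ _ => h2 e
  have af : ∀ o, ∀ r ⊆ D.cst o, Aff r fun x =>
      L (D.xr x) - L (D.xr (mix ((xt (sk T cl m) D.X).st none) 0 x)) := fun o r hr =>
    (h.aff_x hr (hL o)).sub ((h.aff_x hr (hL o)).kill _)
  refine ⟨fun x x' h1 h2 => ?_, fun v => af _ _ (st_sub v), (h.aff_x (st_sub none) (hL _)).lin_part,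
    fun F hF x => ?_⟩
  · rw [on x x' h1 h2, on (mix _ 0 x) (mix ((xt (sk T cl m) D.X).st none) 0 x')
      (fun l k => by simp only [mix, h1 l k]) fun e => by simp only [mix, h2 e]]
  · have k : ¬ Set.InjOn cl F := fun k => hF.elim (fun k1 => by
      have := card_le_card_of_injOn (t := univ) cl (fun _ _ => by simp) k
      rw [card_univ] at this
      omega) fun k1 => k1 k
    simp only [Set.InjOn, not_forall] at k
    obtain ⟨w, hw, w', hw', e, ne⟩ := k
    refine alt_two (mem_image_of_mem some hw) (mem_image_of_mem some hw') (by simpa using ne)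
      (disjoint_left.2 fun a h1 h2 => ne (inj_fc a ((MS.mem_st _).1 h1) ((MS.mem_st _).1 h2) e))
      (af (some (cl w)) _ (union_subset (st_sub _) (e ▸ st_sub (some w')))) x

theorem xr_lab (k : Λ) : D.xr x (D.lab k) = D.r k + D.md k * x (Sum.inl (D.β k)) := by
  simp only [xr, sr, h.uu_lab, lb, sum_add_distrib]
  congr 1
  · rw [sum_eq_single_of_mem D.w0 (mem_filter.2 ⟨mem_univ _, h.w0, fun _ _ => rfl⟩),
      if_pos fun _ _ => rfl]
    refine fun χ hχ ne => if_neg fun e => ne (funext fun c => ?_)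
    by_cases a : some c ∈ D.S.fc (D.lab k)
    exacts [e c a, (mem_filter.1 hχ).2.2 c a]
  · let χ : C → W := fun c => if a : ∃ w ∈ (D.β k).fc, cl w = c then a.choose else D.w0 c
    have k1 : ∀ w ∈ (D.β k).fc, χ (cl w) = w := fun w hw => by
      have a : ∃ v ∈ (D.β k).fc, cl v = cl w := ⟨w, hw, rfl⟩
      exact (dif_pos a).trans ((D.β k).2.2.1 a.choose_spec.1 hw a.choose_spec.2)
    have k2 : ∀ c, some c ∉ D.S.fc (D.lab k) → χ c = D.w0 c := fun c a =>
      dif_neg fun b => a (h.mem_lab.2 b)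
    have k3 : ∀ c, cl (χ c) = c := fun c => by
      by_cases a : some c ∈ D.S.fc (D.lab k)
      · obtain ⟨w, hw, rfl⟩ := h.mem_lab.1 a
        rw [k1 w hw]
      · rw [k2 c a, h.w0]
    rw [sum_eq_single_of_mem χ (mem_filter.2 ⟨mem_univ _, k3, k2⟩), if_pos k1]
    refine fun ψ hψ ne => if_neg fun e => ne (funext fun c => ?_)
    by_cases a : some c ∈ D.S.fc (D.lab k)
    · obtain ⟨w, hw, rfl⟩ := h.mem_lab.1 a
      rw [e w hw, k1 w hw]
    · rw [k2 c a, (mem_filter.1 hψ).2.2 c a]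

omit h in
theorem col_eq (v : D.E → ℝ) (j : D.ex) (f : (C → W) → ℝ)
    (e : ∀ χ (a : D.Pr (j, χ)), v ⟨_, a⟩ = f χ) : D.col v j = sr cl D.w0 (D.S.fc j) f := by
  rw [col, sr, sum_filter]
  refine sum_congr rfl fun χ _ => ?_
  by_cases a : D.Pr (j, χ)
  · rw [ez, dif_pos a, e]; exact (if_pos a).symm
  · rw [ez, dif_neg a]; exact (if_neg a).symm

omit h in
theorem xr_ex (j : D.ex) : D.xr x j = D.col (x ∘ Sum.inr) j := by
  rw [col_eq _ j (fun χ => D.uu x χ j) fun χ a => by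
    rw [uu, dif_pos j.2, Rd.rd_eq a, ez, dif_pos a]]
  rfl

theorem col_g (j : D.ex) : D.col (D.X.g x) j = D.S.p (D.xr x) j := by
  rw [col_eq _ j (fun χ => D.S.p (D.uu x χ) j) fun χ a => rfl]
  exact (expand (θ := fun z => D.S.p z j) h.w0
    (fun z z' e => h.ok.loc _ _ _ fun i hi => e i (mem_filter.2 ⟨mem_univ _, hi.1⟩))
    (fun c hc => h.ok.lin h.cen hc) fun _ _ _ => h.uu_chi).symm

theorem xr_jn (z : Lb T cl Unit m → ℤ) {n : D.E → ℤ} {y : D.ex → ℤ}
    (e : D.col (toR n) = toR y) :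
    D.xr (jn z n) = toR (put D.ex y (xe D.lab D.β D.r D.md z)) := funext fun i => by
  rcases h.cas i with k | ⟨k, rfl⟩
  · rw [toR_apply, put_pos _ _ k]
    exact (xr_ex ⟨i, k⟩).trans (congrFun e _)
  · rw [h.xr_lab, toR_apply, put_neg _ _ (h.nex k), xe, h.inj.extend_apply]
    simp [jn]

end Ok

theorem mix_jn (z : Lb T cl Unit m → ℤ) (n : D.E → ℤ) :
    mix ((xt (sk T cl m) D.X).st none) 0 (jn z n) =
      jn (fun l => if l.bs = none then z l else 0) n := funext fun a => by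
  rcases a with l | e
  · by_cases k : l.bs = none
    · rw [mix_neg _ _ fun a => none_fo.1 ((MS.mem_st _).1 a) k]; simp [jn, k]
    · rw [mix_pos _ _ ((MS.mem_st _).2 (none_fo.2 k))]; simp [jn, k]
  · exact mix_neg _ _ fun a => none_X e ((MS.mem_st _).1 a)

end Dt

end

end Vale.Agent.P057DM
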