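import Vale.Agent.P057HU.Gau
import Vale.Agent.P057MA.Scl

/-!
Covering radius from the dual theta value, near points of triangular maps, and the expansion of
multilinear functions over transversals.
-/

set_option linter.all false

open Matrix Finset Real
open Vale.Agent.P267.H775 Vale.Agent.P057G Vale.Agent.P057MA

namespace Vale.Agent.P057DM

noncomputable section

open Classical

section cov

variable {ι : Type} [Fintype ι] [DecidableEq ι] {G H : Matrix ι ι ℝ} {M : ℝ}

theorem short (hH : H.PosDef) (hM : th H 0 ≤ M) {k : ι → ℤ} (hk : k ≠ 0) :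
    1 ≤ 18 * M ^ 2 * (π * qq H (toR k)) := by
  have h1 := (one_le_th_zero hH).trans hM
  by_contra hc
  push Not at hc
  obtain ⟨i, hi⟩ := Function.ne_iff.1 hk
  have hi' : Function.Injective fun t : ℕ => (t : ℤ) • k := fun a b e => by
    have := congrFun e i
    simp only [Pi.smul_apply, smul_eq_mul] at this
    exact_mod_cast mul_right_cancel₀ hi this
  have h2 := sum_le_hasSum ((range (⌈2 * M⌉₊ + 1)).image fun t : ℕ => (t : ℤ) • k)
    (fun z _ => (gs_pos H (toR z - 0)).le) (hasSum_th hH 0)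
  rw [sum_image fun a _ b _ e => hi' e] at h2
  have h3 := card_nsmul_le_sum (range (⌈2 * M⌉₊ + 1)) (fun t : ℕ => gs H (toR ((t : ℤ) • k) - 0))
    (1 / 2) fun t ht => by
      have h4 : (t : ℝ) ≤ 3 * M := by
        have : (t : ℝ) ≤ ⌈2 * M⌉₊ := by exact_mod_cast Nat.lt_succ_iff.1 (mem_range.1 ht)
        linarith [Nat.ceil_lt_add_one (show 0 ≤ 2 * M by linarith)]
      have h5 : toR ((t : ℤ) • k) - 0 = (t : ℝ) • toR k := by funext j; simp
      have h6 := pow_le_pow_left₀ (Nat.cast_nonneg t) h4 2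
      have h7 := mul_nonneg pi_pos.le (qq_nonneg hH.posSemidef (toR k))
      rw [h5, gs, qq_smul]
      nlinarith [add_one_le_exp (-(π * ((t : ℝ) ^ 2 * qq H (toR k))))]
  simp only [card_range, nsmul_eq_mul, Nat.cast_add, Nat.cast_one] at h3
  linarith [Nat.le_ceil (2 * M)]

theorem fine (hH : H.PosDef) (hM : th H 0 ≤ M) : th ((1 + 36 * M ^ 3) • H) 0 ≤ 3 / 2 := by
  have h1 := (one_le_th_zero hH).trans hM
  have h2 := (hasSum_ite_eq (0 : ι → ℤ) (1 : ℝ)).add ((hasSum_th hH 0).mul_left (exp (-(2 * M))))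
  have h3 := hasSum_le (fun k => ?_) (hasSum_th (hH.smul (show 0 < 1 + 36 * M ^ 3 by positivity)) 0) h2
  · have h4 := add_one_le_exp (2 * M)
    have h5 : exp (-(2 * M)) * exp (2 * M) = 1 := by rw [← exp_add]; simp
    nlinarith [exp_pos (-(2 * M)), mul_le_mul_of_nonneg_left hM (exp_pos (-(2 * M))).le]
  split_ifs with hk
  · rw [hk, toR_zero, sub_zero, gs_zero, gs_zero]
    linarith [exp_pos (-(2 * M))]
  · rw [zero_add, sub_zero, gs, gs, ← exp_add, qq_smul_mat]
    have := mul_le_mul_of_nonneg_left (short hH hM hk) (show 0 ≤ 2 * M by linarith)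
    exact exp_le_exp.2 (by nlinarith)

theorem cover (hG : G.PosDef) (hM : th G⁻¹ 0 ≤ M) (x : ι → ℝ) :
    ∃ z : ι → ℤ, qq G (toR z - x) ≤ (1 + 36 * M ^ 3) * (Fintype.card ι + 1) := by
  have h1 := (one_le_th_zero hG.inv).trans hM
  have h0 : 0 < 1 + 36 * M ^ 3 := by positivity
  obtain ⟨z, hz⟩ := P057HU.cover_of_fine (hG.smul (inv_pos.2 h0)) (by
    rw [inv_smul_mat (inv_pos.2 h0).ne' hG, inv_inv]; exact fine hG.inv hM) x
  rw [qq_smul_mat, inv_mul_le_iff₀ h0] at hz
  exact ⟨z, hz⟩

theorem near {lv : ι → ℕ} {p : (ι → ℤ) → ι → ℝ} (hG : G.PosDef)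
    (ho : ∀ i j, G i j ≠ 0 → lv i = lv j) (hp : Tri lv p) {ρ : ℝ}
    (h : ∀ x, ∃ z : ι → ℤ, qq G (toR z - x) ≤ ρ) :
    ∃ z : ι → ℤ, qq G (toR z - p z) ≤ Fintype.card ι * ρ := by
  have ρ0 : 0 ≤ ρ := (h 0).elim fun z hz => (qq_nonneg hG.posSemidef _).trans hz
  have st : ∀ k, Sat G (univ.filter fun i => lv i = k) := fun k i j hi hj => by
    by_contra h0
    exact hj (by simpa [← ho i j h0] using hi)
  have key : ∀ k, ∃ z : ι → ℤ, qq G (msk (univ.filter fun i => lv i < k) (toR z - p z)) ≤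
      (univ.filter fun i => lv i < k).card * ρ := fun k => by
    induction k with
    | zero =>
      refine ⟨0, ?_⟩
      rw [show msk _ _ = 0 from funext fun i => msk_neg _ (by simp), qq_zero]
      positivity
    | succ k ih =>
      obtain ⟨z, hz⟩ := ih
      obtain ⟨z', hz'⟩ := h (p z)
      have e1 : (univ.filter fun i => lv i < k + 1) ∩ (univ.filter fun i => lv i = k) =
          univ.filter fun i => lv i = k := by ext i; simp; omega
      have e2 : (univ.filter fun i => lv i < k + 1) \ (univ.filter fun i => lv i = k) =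
          univ.filter fun i => lv i < k := by ext i; simp; omega
      have e3 := card_inter_add_card_sdiff (univ.filter fun i => lv i < k + 1)
        (univ.filter fun i => lv i = k)
      have pz : ∀ i, lv i ≤ k → p (mix (univ.filter fun i => lv i = k) z' z) i = p z i :=
        fun i hi => hp i _ _ fun j hj => mix_neg _ _ (by simp; omega)
      refine ⟨mix (univ.filter fun i => lv i = k) z' z, ?_⟩
      rw [qq_msk_split hG.1 (st k), ← e3, e1, e2, Nat.cast_add, add_mul]
      refine add_le_add ?_ (le_of_eq_of_le (congrArg _ (msk_congr fun i hi => ?_)) hz)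
      · rcases (univ.filter fun i => lv i = k).eq_empty_or_nonempty with e | e
        · rw [e, show msk ∅ _ = 0 from funext fun i => msk_neg _ (notMem_empty i), qq_zero]
          simp
        · have h1 : (1 : ℝ) ≤ (univ.filter fun i => lv i = k).card := by exact_mod_cast e.card_pos
          have h2 := qq_split hG.1 (st k) (toR z' - p z)
          rw [msk_congr (w := toR z' - p z) fun i hi => by
            rw [Pi.sub_apply, pz i (mem_filter.1 hi).2.le, toR_apply, mix_pos _ _ hi]; rfl]
          nlinarith [qq_nonneg hG.posSemidef (msk (univ \ univ.filter fun i => lv i = k)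
            (toR z' - p z))]
      · have := (mem_filter.1 hi).2
        rw [Pi.sub_apply, pz i this.le, toR_apply, mix_neg _ _ (by simp; omega)]; rfl
  obtain ⟨z, hz⟩ := key (univ.sup lv + 1)
  rw [filter_true_of_mem fun i hi => Nat.lt_succ_of_le (le_sup hi),
    show msk univ _ = _ from funext fun i => msk_pos _ (mem_univ i)] at hz
  exact ⟨z, hz⟩

end cov

section ex

variable {C W : Type} [Fintype C] [DecidableEq C] [Fintype W] [DecidableEq W] (cl : W → C)
  (w0 : C → W)

/-- transversals that agree with the base transversal outside `F` -/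
def Rd (F : Finset (Option C)) (χ : C → W) : Prop :=
  (∀ c, cl (χ c) = c) ∧ ∀ c, some c ∉ F → χ c = w0 c

/-- the reduction of a transversal -/
def rd (F : Finset (Option C)) (χ : C → W) : C → W := fun c => if some c ∈ F then χ c else w0 c

/-- the sum over the reduced transversals that agree with `χ` outside `D` -/
def sm (F : Finset (Option C)) (D : Finset C) (χ : C → W) (h : (C → W) → ℝ) : ℝ :=
  ∑ ψ ∈ univ.filter fun ψ => Rd cl w0 F ψ ∧ ∀ c ∉ D, some c ∈ F → ψ c = χ c, h ψ

/-- the sum over the reduced transversals -/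
def sr (F : Finset (Option C)) (h : (C → W) → ℝ) : ℝ := ∑ ψ ∈ univ.filter (Rd cl w0 F), h ψ

variable {cl w0} {F : Finset (Option C)} {D : Finset C} {χ : C → W} {h : (C → W) → ℝ}

theorem rd_rd (h0 : ∀ c, cl (w0 c) = c) (hχ : ∀ c, cl (χ c) = c) : Rd cl w0 F (rd w0 F χ) :=
  ⟨fun c => by unfold rd; split_ifs; exacts [hχ c, h0 c], fun c hc => if_neg hc⟩

theorem Rd.rd_eq (h : Rd cl w0 F χ) : rd w0 F χ = χ := funext fun c => by
  unfold rd; split_ifs with k; exacts [rfl, (h.2 c k).symm]

theorem sm_empty (h0 : ∀ c, cl (w0 c) = c) (hχ : ∀ c, cl (χ c) = c) :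
    sm cl w0 F ∅ χ h = h (rd w0 F χ) := by
  refine sum_eq_single_of_mem _ (mem_filter.2 ⟨mem_univ _, rd_rd h0 hχ, fun c _ k => if_pos k⟩)
    fun ψ k ne => (ne (funext fun c => ?_)).elim
  obtain ⟨-, k1, k2⟩ := mem_filter.1 k
  unfold rd; split_ifs with e
  exacts [k2 c (notMem_empty c) e, k1.2 c e]

theorem sm_pos {c : C} (hc : c ∉ D) (hF : some c ∈ F) : sm cl w0 F (insert c D) χ h =
    ∑ w ∈ univ.filter (cl · = c), sm cl w0 F D (Function.update χ c w) h := by
  rw [sm, ← sum_fiberwise_of_maps_to (t := univ.filter (cl · = c)) (g := fun ψ => ψ c)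
    fun ψ k => by simpa using (mem_filter.1 k).2.1.1 c]
  refine sum_congr rfl fun w _ => sum_congr ?_ fun _ _ => rfl
  ext ψ
  simp only [mem_filter, mem_univ, true_and, and_assoc, mem_insert, not_or]
  refine and_congr_right fun _ => ⟨fun k d h1 h2 => ?_, fun k => ⟨fun d h1 h2 => ?_, ?_⟩⟩
  · by_cases e : d = c
    · rw [e, Function.update_self, k.2]
    · rw [Function.update_of_ne e, k.1 d ⟨e, h1⟩ h2]
  · rw [k d h1.2 h2, Function.update_of_ne h1.1]
  · rw [k c hc hF, Function.update_self]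

theorem sm_neg {c : C} (hF : some c ∉ F) (w : W) :
    sm cl w0 F (insert c D) χ h = sm cl w0 F D (Function.update χ c w) h := by
  refine sum_congr ?_ fun _ _ => rfl
  ext ψ
  simp only [mem_filter, mem_univ, true_and, mem_insert, not_or]
  refine and_congr_right fun _ => ⟨fun k d h1 h2 => ?_, fun k d h1 h2 => ?_⟩
  · have e : d ≠ c := fun e => hF (e ▸ h2)
    rw [Function.update_of_ne e, k d ⟨e, h1⟩ h2]
  · rw [k d h1.2 h2, Function.update_of_ne h1.1]

theorem sm_all (hD : ∀ c, some c ∈ F → c ∈ D) : sm cl w0 F D χ h = sr cl w0 F h :=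
  sum_congr (filter_congr fun _ _ => and_iff_left fun c h1 h2 => (h1 (hD c h2)).elim) fun _ _ => rfl

variable {ι : Type} [Fintype ι] [DecidableEq ι] {S : MS (Option C) ι} {θ : (ι → ℝ) → ℝ}
  {u : (C → W) → ι → ℝ}

theorem Lin.sum_mix {r : Finset ι} (hθ : Lin r θ) {A : Type} (s : Finset A) (x : A → ι → ℝ)
    {y : ι → ℝ} (h1 : ∀ i ∈ r, y i = ∑ a ∈ s, x a i) (h2 : ∀ i ∉ r, ∀ a ∈ s, x a i = y i) :
    θ y = ∑ a ∈ s, θ (x a) := by
  have e : y = mix r (∑ a ∈ s, x a) y := funext fun i => by
    by_cases k : i ∈ r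
    · rw [mix_pos _ _ k, h1 i k, Finset.sum_apply]
    · rw [mix_neg _ _ k]
  have k := map_sum (IsLinearMap.mk' _ (hθ y)) x s
  simp only [IsLinearMap.mk'_apply] at k
  rw [e, k]
  refine sum_congr rfl fun a ha => congrArg θ (funext fun i => ?_)
  by_cases k : i ∈ r
  · rw [mix_pos _ _ k]
  · rw [mix_neg _ _ k, h2 i k a ha]

theorem expand (h0 : ∀ c, cl (w0 c) = c) (ho : On (fce S F) θ)
    (hθ : ∀ c, some c ∈ F → Lin (S.st (some c)) θ)
    (hu : ∀ χ χ' i, (∀ c, some c ∈ S.fc i → χ c = χ' c) → u χ i = u χ' i) :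
    θ (fun i => sr cl w0 (S.fc i) fun χ => u χ i) = sr cl w0 F fun χ => θ (u χ) := by
  have key : ∀ D : Finset C, (∀ c ∈ D, some c ∈ F) → ∀ χ, (∀ c, cl (χ c) = c) →
      θ (fun i => sm cl w0 (S.fc i) D χ fun χ => u χ i) = sm cl w0 F D χ fun χ => θ (u χ) := by
    intro D
    induction D using Finset.induction_on with
    | empty =>
      intro _ χ hχ
      simp only [sm_empty h0 hχ]
      exact ho _ _ fun i hi => hu _ _ _ fun c hc => by
        rw [rd, rd, if_pos hc, if_pos ((mem_filter.1 hi).2 hc)]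
    | insert c D hc ih =>
      intro hD χ hχ
      have k := hD c (mem_insert_self _ _)
      rw [sm_pos hc k, Lin.sum_mix (hθ c k) (univ.filter (cl · = c))
        (fun w i => sm cl w0 (S.fc i) D (Function.update χ c w) fun χ => u χ i)
        (fun i hi => sm_pos hc (S.mem_st.1 hi))
        fun i hi w _ => (sm_neg (fun e => hi (S.mem_st.2 e)) w).symm]
      refine sum_congr rfl fun w hw => ih (fun d hd => hD d (mem_insert_of_mem hd)) _ fun d => ?_
      by_cases e : d = c
      · rw [e, Function.update_self, (mem_filter.1 hw).2]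
      · rw [Function.update_of_ne e, hχ]
  rw [← sm_all (D := univ.filter (some · ∈ F)) (χ := w0) fun c hc => by simpa using hc,
    ← key _ (fun c hc => (mem_filter.1 hc).2) w0 h0]
  exact ho _ _ fun i hi => (sm_all fun c hc => by simpa using (mem_filter.1 hi).2 hc).symm

end ex

end

end Vale.Agent.P057DM
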