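import Vale.Agent.P057DM.Alg
import Vale.Agent.P057PC.Blow
import Vale.Agent.P057PC.Top

/-!
Splitting of the extra coordinates along transversals: the estimates.
-/

set_option linter.all false

open Matrix Finset Real
open Vale.Agent.P267.H775 Vale.Agent.P057G Vale.Agent.P057PC Vale.Agent.P057TP Vale.Agent.P057MA
open Vale.Agent.P057SY Vale.Agent.P057AS
open Vale.Agent.P057TE (ez)

namespace Vale.Agent.P057DM

noncomputable section

open Classical

variable {T : Tow} {C W : Type} [Fintype C] [DecidableEq C] [Fintype W] [DecidableEq W]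
  {cl : W → C} {m : ℕ} {ι Λ : Type} [Fintype ι] [DecidableEq ι]

namespace Dt

variable {D : Dt T cl m ι Λ}

theorem qq_X (v : D.E → ℝ) :
    qq D.X.G v = ∑ χ, qq (blk D.S.G D.ex) fun j => ez D.Pr v (j, χ) := by
  rw [X, ← P057TE.qq_ez]
  simp only [qq, dotProduct, mulVec, Fintype.sum_prod_type, Gb, of_apply, ite_mul, zero_mul,
    sum_ite_eq, mem_univ, if_true]
  exact sum_comm

/-- a vector placed on the base transversal -/
def bs {R : Type} [Zero R] (a : D.ex → R) (e : D.E) : R := if e.1.2 = D.w0 then a e.1.1 else 0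

/-- the correction on the base transversal -/
def fx (y : D.ex → ℤ) (n : D.E → ℤ) : D.E → ℤ := n + bs fun j => y j - ∑ χ, ez D.Pr n (j, χ)

theorem col_add (v w : D.E → ℝ) : D.col (v + w) = D.col v + D.col w := funext fun j => by
  simp only [col, Pi.add_apply, ← sum_add_distrib, ez]
  exact sum_congr rfl fun _ _ => by split_ifs <;> simp

theorem toR_fx (y : D.ex → ℤ) (n : D.E → ℤ) :
    toR (fx y n) = toR n + bs (toR y - D.col (toR n)) := funext fun e => by
  simp only [fx, bs, toR_apply, Pi.add_apply, Pi.sub_apply, col, ← P057TE.toR_ez]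
  split_ifs <;> simp

namespace Ok

variable (h : D.Ok)
include h

theorem qq_col (v : D.E → ℝ) :
    qq (blk D.S.G D.ex) (D.col v) ≤ Fintype.card (C → W) * qq D.X.G v := by
  rw [qq_X, show D.col v = ∑ χ, fun j => ez D.Pr v (j, χ) from funext fun j => by
    rw [Finset.sum_apply]; rfl]
  exact qq_sum_le (posDef_blk h.ok.pd _).posSemidef _ _

theorem ez_bs (a : D.ex → ℝ) (j : D.ex) (χ : C → W) :
    ez D.Pr (bs a) (j, χ) = if χ = D.w0 then a j else 0 := by
  unfold ez
  split_ifs with h1 h2 h2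
  exacts [if_pos h2, if_neg h2, (h1 (h2 ▸ ⟨h.w0, fun _ _ => rfl⟩)).elim, rfl]

theorem qq_bs (a : D.ex → ℝ) : qq D.X.G (bs a) = qq (blk D.S.G D.ex) a := by
  rw [qq_X, sum_eq_single_of_mem D.w0 (mem_univ _) fun χ _ k => by
    simp only [h.ez_bs, if_neg k]; exact qq_zero _]
  simp only [h.ez_bs, if_true]

theorem col_bs (a : D.ex → ℝ) : D.col (bs a) = a := funext fun j => by simp [col, h.ez_bs]

theorem col_fx (y : D.ex → ℤ) (n : D.E → ℤ) : D.col (toR (fx y n)) = toR y := by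
  rw [toR_fx, col_add, h.col_bs, add_sub_cancel]

theorem sep (hs : ∀ y : D.ex → ℤ, y ≠ 0 → 1 ≤ qq (blk D.S.G D.ex) (toR y)) (k : D.E → ℤ)
    (hk : k ≠ 0) : 1 ≤ qq D.X.G (toR k) := by
  obtain ⟨e, he⟩ := Function.ne_iff.1 hk
  rw [qq_X, ← P057TE.toR_ez]
  exact (hs (fun j => ez D.Pr k (j, e.1.2)) (Function.ne_iff.2 ⟨e.1.1, fun a =>
    he ((dif_pos e.2).symm.trans a)⟩)).trans (single_le_sum
    (f := fun χ => qq (blk D.S.G D.ex) fun j => toR (ez D.Pr k) (j, χ))
    (fun _ _ => qq_nonneg (posDef_blk h.ok.pd _).posSemidef _) (mem_univ _))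

theorem th_X : th D.X.G⁻¹ 0 ≤ cx D.S.G D.ex ^ Fintype.card (C → W) := by
  have h1 := ms_zero_split (P := D.Pr) h.pd_Gb fun a b ha hb => by
    by_contra k
    have k1 : a.2 = b.2 := by
      by_contra k1; exact k (if_neg k1)
    have k2 := (h.ok.orth _ _ fun h0 => k ((if_pos k1).trans h0)).1
    exact hb (by rw [Pr, ← k1, ← k2]; exact ha)
  have h2 := ms_zero_le univ (B := cx D.S.G D.ex) _ Prod.snd D.Gb h.pd_Gb (fun _ _ k => if_neg k)
    (fun _ => mem_univ _) fun χ _ => by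
      rw [cx, ← ms_zero (posDef_blk h.ok.pd _)]
      exact (ms_equiv (K := D.ex) ⟨fun j => ⟨(j, χ), rfl⟩, fun a => a.1.1, fun _ => rfl,
        fun a => Subtype.ext (Prod.ext rfl a.2.symm)⟩ (fun _ _ => (if_pos rfl).symm)
        fun _ _ => rfl).ge
  rw [← ms_zero h.xok.pd]
  refine le_trans ?_ h2
  rw [h1]
  exact le_mul_of_one_le_right (ms_nonneg _ _) (P057TE.one_le_ms (posDef_bk h.pd_Gb _))

theorem lift {ρ : ℝ} (hρ : ∀ x, ∃ n : D.E → ℤ, qq D.X.G (toR n - x) ≤ ρ)
    (z : Lb T cl Unit m → ℤ) (y : D.ex → ℤ) : ∃ n : D.E → ℤ, D.col (toR n) = toR y ∧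
      qq D.X.G (toR n - D.X.g (jn z n)) ≤ (2 + 4 * Fintype.card (C → W)) * (Fintype.card D.E * ρ) +
        4 * qq (blk D.S.G D.ex) (toR y - D.col (D.X.g (jn z n))) := by
  obtain ⟨n, hn⟩ := near (lv := D.X.tr) (p := fun n => D.X.g (jn z (fx y n))) h.xok.pd
    (fun e e' k => (h.xok.ort e e' k).2) (fun e n n' k => h.loc e _ _ (fun _ _ => rfl)
      fun e' _ l => by
        have : ∀ χ, ez D.Pr n (e'.1.1, χ) = ez D.Pr n' (e'.1.1, χ) := fun χ => by
          unfold ez; split_ifs with a; exacts [k ⟨_, a⟩ l, rfl]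
        simp only [jn, Sum.elim_inr, toR_apply, fx, Pi.add_apply, bs, k e' l, this]) hρ
  refine ⟨fx y n, h.col_fx y n, ?_⟩
  beta_reduce at hn
  generalize D.X.g (jn z (fx y n)) = g at hn ⊢
  have e : toR (fx y n) - g = (toR n - g) + bs ((toR y - D.col g) - D.col (toR n - g)) := by
    have := col_add (toR n - g) g
    rw [sub_add_cancel] at this
    rw [toR_fx, this]; congr 1; abel_nf
  have pe := posDef_blk h.ok.pd D.ex
  have h1 := qq_add h.xok.pd.1 (toR n - g) (bs ((toR y - D.col g) - D.col (toR n - g)))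
  have h2 := qq_sub h.xok.pd.1 (toR n - g) (bs ((toR y - D.col g) - D.col (toR n - g)))
  have h3 := qq_nonneg h.xok.pd.posSemidef
    (toR n - g - bs ((toR y - D.col g) - D.col (toR n - g)))
  have h4 := qq_add pe.1 (toR y - D.col g) (D.col (toR n - g))
  have h5 := qq_sub pe.1 (toR y - D.col g) (D.col (toR n - g))
  have h6 := qq_nonneg pe.posSemidef (toR y - D.col g + D.col (toR n - g))
  have h7 := (h.qq_col (toR n - g)).trans (mul_le_mul_of_nonneg_left hn (Nat.cast_nonneg _))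
  rw [h.qq_bs] at h1 h2
  rw [e]
  linarith

end Ok

end Dt

theorem num {A N K M : ℝ} (hA : 2 ≤ A) (hN : N ≤ A) (K0 : 0 ≤ K) (hK : K ≤ A ^ 2) (M0 : 0 ≤ M)
    (hM : M ≤ exp (A ^ 2)) :
    (2 + 4 * N) * (K * ((1 + 36 * M ^ 3) * (K + 1))) + 4 * exp A ≤ exp (A ^ 6) := by
  have h1 := add_one_le_exp (A ^ 2)
  have h0 : exp A ≤ exp (A ^ 2) := exp_le_exp.2 (by nlinarith)
  have h9 : exp (A ^ 2) ^ 10 ≤ exp (A ^ 6) := by
    rw [← exp_nat_mul, show A ^ 6 = A ^ 4 * A ^ 2 by ring]
    refine exp_le_exp.2 (mul_le_mul_of_nonneg_right ?_ (sq_nonneg A))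
    have := pow_le_pow_left₀ zero_le_two hA 4
    push_cast; linarith
  generalize exp (A ^ 2) = y at *
  have h2 : 5 ≤ y := by nlinarith
  have h3 := pow_le_pow_left₀ (by norm_num) h2 3
  have h4 : 1 + 36 * M ^ 3 ≤ y ^ 3 * y ^ 3 := by nlinarith [pow_le_pow_left₀ M0 hM 3]
  have h5 : K * ((1 + 36 * M ^ 3) * (K + 1)) ≤ y * (y ^ 3 * y ^ 3 * y) :=
    mul_le_mul (by linarith) (mul_le_mul h4 (by linarith) (by linarith) (by positivity))
      (by positivity) (by linarith)
  have h6 : y ≤ y * (y ^ 3 * y ^ 3 * y) := le_mul_of_one_le_right (by linarith)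
    (by rw [← pow_add, ← pow_succ]; exact one_le_pow₀ (by linarith))
  have h7 : 6 + 4 * A ≤ y ^ 2 := by nlinarith
  have h8 := mul_le_mul (show 2 + 4 * N ≤ 2 + 4 * A by linarith) h5 (by positivity) (by linarith)
  have h10 := mul_le_mul_of_nonneg_right h7 (show 0 ≤ y * (y ^ 3 * y ^ 3 * y) by positivity)
  rw [show y ^ 10 = y ^ 2 * (y * (y ^ 3 * y ^ 3 * y)) by ring] at h9
  linarith

theorem dem : DEM := by
  refine ⟨6, by norm_num, fun T C W _ _ _ _ cl m ι Λ J _ _ S ex lab β r md L τ A hS hc hA hcl hW hE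
    hi hr hf hL => ?_⟩
  choose w0 hw using hcl
  let D : Dt T cl m ι Λ := ⟨S, ex, lab, β, r, md, w0⟩
  have h : D.Ok := ⟨hS, hc, hw, hE.nt, hi, hr, hf⟩
  have hN : (Fintype.card (C → W) : ℝ) ≤ A := by simpa using hW
  have hK : (Fintype.card D.E : ℝ) ≤ A ^ 2 := by
    refine (Nat.cast_le.2 (Fintype.card_subtype_le _)).trans ?_
    rw [Fintype.card_prod, Fintype.card_coe, Nat.cast_mul, sq]
    exact mul_le_mul hE.card hN (Nat.cast_nonneg _) (by linarith)
  have hM : th D.X.G⁻¹ 0 ≤ exp (A ^ 2) := by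
    refine h.th_X.trans ((pow_le_pow_left₀ (th_nonneg _ _) hE.cx _).trans ?_)
    rw [← exp_nat_mul, sq]
    exact exp_le_exp.2 (mul_le_mul_of_nonneg_right hN (by linarith))
  have h26 : A ^ 2 ≤ A ^ 6 := pow_le_pow_right₀ (by linarith) (by norm_num)
  choose lt h1 h2 using h.lift (cover h.xok.pd le_rfl)
  refine ⟨D.E, inferInstance, inferInstance, D.X, fun x j => L j (D.xr x) -
    L j (D.xr (mix ((xt (sk T cl m) D.X).st none) 0 x)),
    fun z => lt fun l => if l.bs = none then z l else 0, h.xok, ⟨fun e => hE.lt _ e.1.1.2,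
    hK.trans h26, h.sep hE.sep, hM.trans (exp_le_exp.2 h26)⟩, Dt.none_X,
    fun j => h.dg fun o => ?_, fun z z' e => congrArg lt (funext fun l => if_ctx_congr Iff.rfl
      (e l) fun _ => rfl), fun z y => ⟨fun k => ?_, fun j => ?_⟩⟩
  · cases o with
    | none => exact (hL j).1.aff
    | some b => exact (hL j).2 b
  · have k2 := h2 (fun l => if l.bs = none then z l else 0) y
    have k1 := h1 (fun l => if l.bs = none then z l else 0) y
    beta_reduce
    generalize lt (fun l => if l.bs = none then z l else 0) y = n at k1 k2 ⊢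
    have e : D.X.g (jn (fun l => if l.bs = none then z l else 0) n) = D.X.g (jn z n) :=
      funext fun e => h.loc e _ _ (fun l a => by
        have : l.bs = none := by
          by_contra b; exact Dt.none_X e (a (none_fo.2 b))
        simp [jn, this]) fun _ _ _ => rfl
    rw [e, show toR y - D.col (D.X.g (jn z n)) = fun j : ex => (y j : ℝ) -
      S.p (toR (put ex y (xe lab β r md z))) j from funext fun j => by
        rw [Pi.sub_apply, h.col_g, h.xr_jn z k1]; rfl] at k2
    have := num hA hN (Nat.cast_nonneg _) hK (th_nonneg _ _) hM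
    unfold pE at k
    linarith
  · beta_reduce
    rw [Dt.mix_jn, h.xr_jn _ (h1 _ y), h.xr_jn _ (h1 _ y)]

end

end Vale.Agent.P057DM
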