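import Vale.Agent.P057SY.Alt
import Vale.Agent.P057SA.Stg
import Vale.Agent.P057DR.Drp

/-!
The assembly of one round.
-/

set_option linter.all false

open Matrix Finset Real
open Vale.Agent.P267.H775 Vale.Agent.P057G Vale.Agent.P057PC Vale.Agent.P057TP Vale.Agent.P057MA
open Vale.Agent.P057RG Vale.Agent.P057SY
open Vale.Agent.P057DP (Sel cb)
open Vale.Agent.P057SA (ex_le grow_pw cx_pw F_le)

namespace Vale.Agent.P057DM

noncomputable section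

section hat

variable {T : Tow} {V K J : Type} {m : ℕ} [Fintype V] [DecidableEq V] [Fintype K] [DecidableEq K]
  [Fintype J] {X : Xt V (SA T V m) K} {B B' H : ℝ}

theorem hat_mono {ψ : (SA T V m ⊕ K → ℝ) → ℝ} (h : Hat X ψ B) (h0 : 0 < B) (hB : B ≤ B') :
    Hat X ψ B' := by
  obtain ⟨I, R, h1, h2, h3, h4, h5⟩ := h
  exact ⟨I, R, h1, h2, h3, h4.mono hB, fun y hy => h5 y (hy.trans (inv_anti₀ h0 hB))⟩

theorem hat_sum {ψ : J → (SA T V m ⊕ K → ℝ) → ℝ} (h : ∀ j, Hat X (ψ j) B) (h0 : 0 < B)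
    (b : J → ℤ) (hb : ∀ j, |(b j : ℝ)| ≤ H) (h1 : Fintype.card J * (H * B) ≤ B') (h2 : B ≤ B') :
    Hat X (fun x => ∑ j, b j * ψ j x) B' := by
  choose I R k1 k2 k3 k4 k5 using h
  refine ⟨fun x => ∑ j, b j * I j x, fun x => ∑ j, b j * R j x, Fm.sum _ fun j _ => (k1 j).smul _,
    IntV.sum _ fun j _ => (IntV.const _).mul (k2 j), Fm.sum _ fun j _ => (k3 j).smul _,
    fun z hz => (abs_sum_le_sum_abs _ _).trans ((sum_le_card_nsmul _ _ (H * B) fun j _ => ?_).trans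
      (by simpa using h1)), fun y hy => ?_⟩
  · exact ((k4 j).smul _ z hz).trans (mul_le_mul_of_nonneg_right (hb j) h0.le)
  · rw [sum_comm, ← sum_add_distrib]
    refine sum_congr rfl fun j _ => ?_
    rw [← mul_sum, k5 j y (hy.trans (inv_anti₀ h0 h2)), mul_add]

end hat

section kd

variable {C W E J : Type} [Fintype W] [DecidableEq W] {T : Tow} {cl : W → C} {m b τ : ℕ}
  [Fintype E] [DecidableEq E] [Fintype J] {X : Xt (Option W) (Lb T cl Unit m) E} {Y Y' : ℝ}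

theorem alt_sum {V ι : Type} [DecidableEq V] [Fintype ι] [DecidableEq ι] (S : MS V ι) (I : Finset V)
    (c : J → ℝ) (φ : J → (ι → ℝ) → ℝ) (z : ι → ℝ) :
    S.alt I (fun x => ∑ j, c j * φ j x) z = ∑ j, c j * S.alt I (φ j) z := by
  simp only [MS.alt, mul_sum]
  rw [sum_comm]
  exact sum_congr rfl fun _ _ => sum_congr rfl fun _ _ => mul_left_comm _ _ _

theorem dg_sum {φ : J → (Lb T cl Unit m ⊕ E → ℝ) → ℝ} (h : ∀ j, Dg X b (φ j)) (c : J → ℝ) :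
    Dg X b fun x => ∑ j, c j * φ j x :=
  ⟨fun x x' h1 h2 => sum_congr rfl fun j _ => by rw [(h j).on x x' h1 h2],
    fun v => Aff.sum _ c fun j _ => (h j).aff v, Lin.sum _ c fun j _ => (h j).lin, fun F hF x => by
      rw [alt_sum]; exact sum_eq_zero fun j _ => by rw [(h j).deg F hF, mul_zero]⟩

theorem sz_mono {V ι : Type} {X : Xt V ι E} (h : X.Sz τ Y) (hY : Y ≤ Y') : X.Sz τ Y' :=
  ⟨h.tr, h.card.trans hY, h.sep, h.cx.trans (exp_le_exp.2 hY)⟩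

theorem cor_mono {Z : Sys T W Unit} {n : (Lb T cl Unit m → ℤ) → E → ℤ}
    {φ : (Lb T cl Unit m ⊕ E → ℝ) → ℝ} (h : Cor Z X n φ Y) (hY : Y ≤ Y') : Cor Z X n φ Y' := by
  obtain ⟨β, g, h1, h2, h3, h4, h5⟩ := h
  exact ⟨β, g, h1, h2, fun z k => (h3 z k).trans (exp_le_exp.2 hY), h4, (ex_le hY).trans h5⟩

theorem res_mono {V ι A : Type} [Fintype V] [DecidableEq V] [Fintype ι] [DecidableEq ι]
    {S : MS V ι} {X : Xt V ι E} {ψ : A → (ι ⊕ E → ℝ) → ℝ} {t : V} {d : ℕ} {lam : ℝ}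
    (h : Res S X ψ t τ d lam Y) (hY : Y ≤ Y') : Res S X ψ t τ d lam Y' := by
  obtain ⟨K, _, _, X', P, a1, a2, a3, a4, a5, a6, a7⟩ := h
  exact ⟨K, _, _, X', P, a1, a2, sz_mono a3 hY, a4, a5, a6, fun a => (a7 a).mono (exp_le_exp.2 hY)⟩

theorem mem_tops {F : Finset W} : F ∈ tops cl b ↔ F.card = b ∧ Set.InjOn cl F := by simp [tops]

theorem card_tops {s : ℕ} (hb : b ≤ s) : (tops cl b).card ≤ (Fintype.card W + 1) ^ s :=
  (card_le_card fun F h => by simpa using (mem_tops.1 h).1.le.trans hb).trans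
    (P057SH.card_faces s)

variable [DecidableEq J]

theorem kd_mono {D : KD T cl m E J} (h : D.Ok b τ Y) (hY : Y ≤ Y') : D.Ok b τ Y' :=
  have e := exp_le_exp.2 hY
  ⟨h.ok, sz_mono h.sz hY, h.tf, h.cj.trans hY, h.dg, h.pd, fun j => (h.gk j).trans e, h.wu, h.wn,
    h.wg, h.u01, fun z k => (h.ps z k).trans e⟩

theorem sel_eq (σ : Sel J) (hD : σ.D ≠ 0) {k : J → ℤ} (hk : k ∈ σ.K) (y : J → ℝ) :
    toR k ⬝ᵥ y = ∑ a, (((σ.D.sign • σ.w a) ⬝ᵥ k : ℤ) : ℝ) *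
      ∑ j, (σ.b a j : ℝ) / σ.D.natAbs * y j := by
  have h1 : (σ.D.sign : ℝ) * σ.D = σ.D.natAbs := by
    rw [← Int.cast_natCast, ← Int.sign_mul_self_eq_natAbs]; push_cast; rfl
  have h2 : (σ.D.natAbs : ℝ) ≠ 0 := by simpa using hD
  simp only [mul_sum]
  rw [sum_comm]
  refine sum_congr rfl fun j _ => ?_
  have h3 : (σ.D : ℝ) * k j = ∑ a, ((σ.w a ⬝ᵥ k : ℤ) : ℝ) * σ.b a j := by
    have := congrFun (Sel.mem_K.1 hk) j
    simp only [Pi.smul_apply, Finset.sum_apply, smul_eq_mul] at this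
    exact_mod_cast this
  have h4 : ∀ a, (((σ.D.sign • σ.w a) ⬝ᵥ k : ℤ) : ℝ) * ((σ.b a j : ℝ) / σ.D.natAbs * y j) =
      σ.D.sign / σ.D.natAbs * y j * (((σ.w a ⬝ᵥ k : ℤ) : ℝ) * σ.b a j) := fun a => by
    rw [smul_dotProduct, smul_eq_mul, Int.cast_mul]; ring
  simp only [h4, ← mul_sum, ← h3]
  rw [toR_apply]
  field_simp
  rw [← h1]; ring

theorem cb_le {H : ℕ} {x y : ℝ} (h1 : (Fintype.card J : ℝ) ≤ x) (h2 : (H : ℝ) ≤ exp y)
    (h3 : 0 ≤ y) : (cb J H : ℝ) ≤ exp (x * (x + y)) := by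
  have h0 : 0 ≤ x := (Nat.cast_nonneg _).trans h1
  have h4 : ((Fintype.card J).factorial : ℝ) ≤ exp x ^ Fintype.card J :=
    le_trans (by exact_mod_cast Nat.factorial_le_pow _) (pow_le_pow_left₀ (Nat.cast_nonneg _)
      (by linarith [add_one_le_exp x]) _)
  rw [cb, Nat.cast_mul, Nat.cast_pow]
  refine (mul_le_mul h4 (pow_le_pow_left₀ (Nat.cast_nonneg _) h2 _) (by positivity)
    (by positivity)).trans ?_
  rw [← mul_pow, ← exp_add, ← exp_nat_mul]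
  exact exp_le_exp.2 (mul_le_mul_of_nonneg_right h1 (by linarith))

end kd

theorem card_tow {T : Tow} {s : ℕ} {N X : ℝ} (hT : T.Ok s N) (h : ∀ e, T.dm e ≤ X) :
    (Fintype.card T.ι : ℝ) ≤ (s + 1) * X := by
  rw [← card_univ, card_eq_sum_card_fiberwise (t := range (s + 1)) (f := T.lv)
    fun a _ => by simpa using Nat.lt_succ_of_le (hT.le a), Nat.cast_sum]
  exact (sum_le_card_nsmul _ _ X fun e _ => h e).trans_eq (by simp)

theorem pw_exp {s : ℕ} {N c : ℝ} {P : ℕ → ℝ} (h : Lad s N c P) (h1 : 1 ≤ c) {k m : ℕ}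
    (hk : k ≤ c) (hm : m ≤ s + 1) : P 0 ^ k ≤ exp (P m ^ 2) := by
  have p1 := fun e => h1.trans (h.big e)
  rw [← log_le_iff_le_exp (pow_pos (by linarith [p1 0]) _), log_pow, sq]
  exact mul_le_mul (hk.trans (h.big _)) (h.lg.trans (lad_le h hm)) (log_nonneg (p1 0))
    (by linarith [p1 m])

/-- diagonals and regularisation -/
theorem pre {s τ : ℕ} (hH : HAT s τ) (hP : PULL) (hM : MORC s) (hR : REG s) (hF : SYF) (a : ℕ) :
    ∃ c : ℕ, 3 ≤ c ∧ ∀ (N : ℝ) (P : ℕ → ℝ) (T : Tow) (C W : Type) [Fintype W] [DecidableEq W]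
    (cl : W → C) (m b : ℕ) (Z : Sys T W Unit) (f : ℤ → ℝ) (θ B κ σ : ℝ),
    Lad s N c P → T.Ok s N → T.Cx N P → Z.Ok → b + 1 < m → m ≤ s + 1 →
    (Fintype.card W : ℝ) ≤ P m → B ≤ exp (P m) → exp (-P m) ≤ κ → exp (-P 0) ≤ σ →
    KS Z cl m f θ (b + 1) τ (P m) B κ σ →
    ∃ (T' : Tow) (Z' : Sys T' W Unit) (E J : Type) (_ : Fintype E) (_ : DecidableEq E)
      (_ : Fintype J) (_ : DecidableEq J) (D : KD T' cl m E J) (κ' σ' : ℝ), T'.Ok s N ∧ Z'.Ok ∧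
      Up m T' T ∧ T.Grow N T' (fun e => P e ^ c) ∧ D.Ok (b + 1) τ (P m) ∧ exp (-P m ^ 2) ≤ κ' ∧
      0 ≤ σ' ∧ Z'.St cl m (D.H Z' f θ) B κ' σ' ∧ T'.LFd (m - 1) (P m ^ a) (P m ^ a) ∧
      ∀ F ∈ tops cl b, ∀ j, Hat (D.X.sy F) (sf D.X F fun x => D.Φ x j) (exp (P m ^ 2)) := by
  obtain ⟨cH, hH⟩ := hH
  obtain ⟨cM, kM, hM⟩ := hM
  obtain ⟨cR, hR⟩ := hR
  obtain ⟨g, hg⟩ : ∃ g, g = a + cH + 2 := ⟨_, rfl⟩
  obtain ⟨c, hc⟩ : ∃ c, c = g * cR + g + cR + cM := ⟨_, rfl⟩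
  refine ⟨c, by omega, fun N P T C W _ _ cl m b Z f θ B κ σ hL hT hC hZ hb hm hW hB hκ hσ h => ?_⟩
  obtain ⟨E, J, _, _, _, _, D, hD, hS⟩ := h.kd
  have cc : ∀ k : ℕ, k ≤ c → ∀ e, (k : ℝ) ≤ P e := fun k hk e =>
    le_trans (by exact_mod_cast hk) (hL.big e)
  have p3 : ∀ e, (3 : ℝ) ≤ P e := fun e => by exact_mod_cast cc 3 (by omega) e
  have p1 : ∀ e, (1 : ℝ) ≤ P e := fun e => by linarith only [p3 e]
  have pg : ∀ e, P e ≤ P e ^ g := fun e => le_self_pow₀ (p1 e) (by omega)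
  have key : ∀ {T T' : Tow} {Ψ : Fam ℤ T.ι T'.ι W Unit} {σ} {γ} (D : KD T cl m E J),
      Lm cl m Ψ.top σ → D.Ok (b + 1) τ (P m) → ∀ F ∈ tops cl b, ∀ j B,
      Hat ((D.X.sy F).pull (pol Ψ.top)) (fun x => sf D.X F (fun x => D.Φ x j) (sg (pol Ψ.top) x)) B →
      Hat ((D.pull Ψ σ γ).X.sy F) (sf (D.pull Ψ σ γ).X F fun x => (D.pull Ψ σ γ).Φ x j) B :=
    fun D h1 h2 F hF j B h3 => by
      have k := mem_tops.1 hF
      rw [← (h1.ok E D.X h2.ok h2.tf).2 F k.2,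
        ← funext ((h1.dg E D.X _ _ (h2.dg j)).2 F k.2 (by omega))] at h3
      exact h3
  obtain ⟨T₁, Z₁, Ψ₁, a1, a2, a3, a4, a5, a6, a7⟩ := hH N T C W E J cl m b Z D _ B κ σ (P m) hT hZ hb
    hm hD hW (cc cH (by omega) m) hS
  obtain ⟨σ₁, l1, h1⟩ := hP s N T T₁ C W cl m Z Z₁ Ψ₁ 0 0 hT a1 a5
  obtain ⟨γ₁, d1, e1⟩ := h1 E J D _ _ _ hD
  have G1 : T.Grow N T₁ fun e => P e ^ cH := fun e => by
    have k0 : 0 ≤ P (e + 1) ^ cH := pow_nonneg (by linarith only [p1 (e + 1)]) _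
    have k1 := mul_nonneg (dm_nonneg T e) k0
    by_cases he : e < m
    · have := pow_le_pow_left₀ (by linarith only [p1 m]) (lad_le hL (show e + 1 ≤ m by omega)) cH
      constructor <;> linarith only [this, k1, (a4 e).1, (a4 e).2]
    · rw [up_dm a3 (not_lt.1 he), up_yy a3 N (not_lt.1 he)]
      constructor <;> linarith only [k0, k1]
  obtain ⟨j, rfl⟩ : ∃ j, m = j + 1 := ⟨m - 1, by omega⟩
  have x2 : 3 * P (j + 1) ≤ P (j + 1) ^ 2 := by nlinarith only [p3 (j + 1)]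
  obtain ⟨T₂, Z₂, Ψ₂, b1, b2, b3, b4, b5, b6, -, -, b7, -⟩ := hR N (fun e => P e ^ g) T₁ C W Unit cl
    (j + 1) j Z₁ ((D.pull Ψ₁ σ₁ γ₁).H Z₁ f θ) B κ σ
    (lad_mono (lad_pow hL (by exact_mod_cast (show 1 ≤ c by omega)) (a := fun _ => g)
      (fun _ => le_rfl) (fun _ => by omega) (by exact_mod_cast (show g ≤ c by omega)))
      (by exact_mod_cast (show cR ≤ c by omega))) a1
    (cx_pw (i := 1) p3 hL.anti (by simpa using hC) G1 (by omega)) a2 (by omega) (by omega)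
    (le_trans (by rw [Fintype.card_unit]; push_cast; linarith only [x2, hW, p1 (j + 1)])
      (pow_le_pow_right₀ (p1 _) (show 2 ≤ g by omega))) (hB.trans (exp_le_exp.2 (pg _)))
    ((ex_le (pg _)).trans hκ) ((ex_le (pg _)).trans hσ) (by rwa [funext (e1 f θ)])
  obtain ⟨σ₂, l2, h2⟩ := hP s N T₁ T₂ C W cl (j + 1) Z₁ Z₂ Ψ₂ _ _ a1 b1 b4
  obtain ⟨γ₂, d2, e2⟩ := h2 E J _ _ _ _ d1
  simp only [← pow_mul] at b6
  have k1 : exp (-P (j + 1) ^ 2) ≤ (1 - 1 / P 0 ^ g) * κ := by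
    have h3 : 1 / P 0 ^ g ≤ 1 / 2 := one_div_le_one_div_of_le two_pos (by linarith only [pg 0, p3 0])
    have h4 : exp (-P (j + 1) ^ 2) * exp 1 ≤ κ :=
      le_trans (by rw [← exp_add]; exact exp_le_exp.2 (by linarith only [x2, p1 (j + 1)])) hκ
    have h5 := mul_le_mul_of_nonneg_left (add_one_le_exp 1) (exp_pos (-P (j + 1) ^ 2)).le
    have h6 := mul_le_mul_of_nonneg_right h3 ((exp_pos _).le.trans hκ)
    linarith only [h4, h5, h6]
  have k2 : P (j + 1) ^ a ≤ P (j + 1) ^ g := pow_le_pow_right₀ (p1 _) (by omega)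
  refine ⟨T₂, Z₂, E, J, _, _, _, _, _, _, _, b1, b2, up_trans b3 a3, grow_pw p3 G1 b6 (by omega), d2,
    k1, mul_nonneg ((exp_pos _).le.trans hσ) (exp_pos _).le, by rwa [funext (e2 f θ)],
    lfd_mono b1 b7 le_rfl (k2.trans (pow_le_pow_left₀ (by linarith only [p1 (j + 1)]) (hL.anti j) _))
      k2, fun F hF' i => key _ l2 d1 F hF' i _ (hat_mono ((hM N T₁ T₂ (VF F) (j + 1) Ψ₂.top a1 b1
      (by rw [Fintype.card_coe, card_fp, (mem_tops.1 hF').1]; omega) b4.mor).2.2 _ _ _ _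
      (one_le_exp (by linarith only [p1 (j + 1)]))
      (hF s N T₁ C W E cl (j + 1) τ _ _ F a1 d1.ok d1.sz d1.tf).1.pd
      (key D l1 hD F hF' i _ (a7 F hF' i))) (by positivity) ?_)⟩
  refine (mul_le_mul_of_nonneg_right ((cc cM (by omega) (j + 1)).trans ((le_add_of_nonneg_right
    zero_le_one).trans (add_one_le_exp _))) (exp_pos _).le).trans ?_
  rw [← exp_add]
  exact exp_le_exp.2 (by linarith only [x2, p1 (j + 1)])

/-- dropping, symmetry, resolution, descent -/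
theorem post {s τ : ℕ} (hD : DRP s) (hF : SYF) (hS : SYM s) (hL : REL s τ) (hN : FIN s τ) :
    ∃ a : ℕ, ∀ g : ℕ, ∃ c : ℕ, 3 ≤ c ∧ ∀ (N : ℝ) (P : ℕ → ℝ) (T : Tow) (C W E J : Type) [Fintype W]
    [DecidableEq W] [Fintype E] [DecidableEq E] [Fintype J] [DecidableEq J] (cl : W → C) (m b : ℕ)
    (Z : Sys T W Unit) (D : KD T cl m E J) (f : ℤ → ℝ) (θ B κ σ : ℝ),
    Lad s N c P → T.Ok s N → T.Cx N (fun e => P e ^ g) →
    (∀ e, m ≤ e → T.dm e ≤ P m ∧ T.yy N e ≤ P m) → Z.Ok → b + 1 < m → m ≤ s + 1 → Unit01 f →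
    0 ≤ θ → θ ≤ 4 → (Fintype.card W : ℝ) ≤ P m → ((cells cl).card : ℝ) ≤ P m →
    D.Ok (b + 1) τ (P m) → exp (-P m ^ 2) ≤ κ → 0 ≤ σ → Z.St cl m (D.H Z f θ) B κ σ →
    T.LFd (m - 1) (P m ^ a) (P m ^ a) →
    (∀ F ∈ tops cl b, ∀ j, Hat (D.X.sy F) (sf D.X F fun x => D.Φ x j) (exp (P m ^ 2))) →
    ∃ (T' : Tow) (Z' : Sys T' W Unit) (B' κ' σ' : ℝ), T'.Ok s N ∧ Z'.Ok ∧ Up m T' T ∧
      T.Grow N T' (fun e => P e ^ c) ∧ B' ≤ exp (P m ^ c) ∧ exp (-P m ^ c) ≤ κ' ∧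
      exp (-P 1 ^ c) ≤ σ' ∧ KS Z' cl m f θ b (2 * τ) (P m ^ c) B' κ' σ' := by
  obtain ⟨cD, hD⟩ := hD
  obtain ⟨cS, hS⟩ := hS
  obtain ⟨cL, hL⟩ := hL
  obtain ⟨cF, hN⟩ := hN
  obtain ⟨e2, h2⟩ : ∃ e, e = 4 * cD + 4 := ⟨_, rfl⟩
  obtain ⟨e3, h3⟩ : ∃ e, e = e2 * cS + e2 + 1 := ⟨_, rfl⟩
  obtain ⟨e4, h4⟩ : ∃ e, e = e3 * cL + e3 + 2 * s + 1 := ⟨_, rfl⟩
  refine ⟨e3 * cL + e3, fun g => ?_⟩
  obtain ⟨e5, h5⟩ : ∃ e, e = e4 * cL + e4 + g := ⟨_, rfl⟩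
  obtain ⟨c, hc⟩ : ∃ e, e = e5 * cF + 2 * e5 + cS + cL + cF + s + 17 := ⟨_, rfl⟩
  refine ⟨c, by omega, fun N P T C W E J _ _ _ _ _ _ cl m b Z D f θ B κ σ hP hT hC hU hZ hb hm hf t0 t4
    hW hc' hK hκ hσ h hR hH => ?_⟩
  have cc : ∀ k : ℕ, k ≤ c → ∀ e, (k : ℝ) ≤ P e := fun k hk e =>
    le_trans (by exact_mod_cast hk) (hP.big e)
  have p3 : ∀ e, (3 : ℝ) ≤ P e := fun e => by exact_mod_cast cc 3 (by omega) e
  have p1 : ∀ e, (1 : ℝ) ≤ P e := fun e => by linarith only [p3 e]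
  have c1 : (1 : ℝ) ≤ c := by exact_mod_cast (show 1 ≤ c by omega)
  have ex := fun k (hk : k ≤ c) => pw_exp hP c1 (k := k) (by exact_mod_cast hk) hm
  have cT : (Fintype.card T.ι : ℝ) ≤ exp (P m ^ 2) := by
    refine (card_tow hT fun e => (hC e).1.trans (pow_le_pow_left₀ (by linarith only [p1 e])
      (lad_le hP e.zero_le) g)).trans (le_trans ?_ (ex (g + 1) (by omega)))
    rw [pow_succ']
    exact mul_le_mul_of_nonneg_right (by exact_mod_cast cc (s + 1) (by omega) 0)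
      (pow_nonneg (by linarith only [p1 0]) _)
  have la : Lad s N cF fun e => P e ^ e5 := lad_mono (lad_pow hP c1 (a := fun _ => e5)
    (fun _ => le_rfl) (fun _ => by omega) (by exact_mod_cast (show e5 ≤ c by omega)))
    (by exact_mod_cast (show cF ≤ c by omega))
  have hN' := fun t => hN N (fun e => P e ^ e5) T C W E J (Fin t) cl m b
  have cm := fun k hk => cc k hk m
  have x3 := p3 m
  have x1 := p1 m
  have fc : ∀ e, (P e ^ e5) ^ cF ≤ P e ^ c := fun e => by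
    rw [← pow_mul]; exact pow_le_pow_right₀ (p1 e) (by omega)
  have fm := fc m
  have hF1 := fun z c t => F_le (cl := cl) hT hP.one hZ hf x1 hU z c t
  beta_reduce at hN'
  clear hN hU ex
  generalize P m = x at *
  have pw : ∀ {i j : ℕ}, i ≤ j → x ^ i ≤ x ^ j := pow_le_pow_right₀ x1
  have pp : ∀ {i k j : ℕ}, i * k ≤ j → (x ^ i) ^ k ≤ x ^ j := fun h => by
    rw [← pow_mul]; exact pw h
  have px : ∀ {i : ℕ}, 1 ≤ i → x ≤ x ^ i := fun h => le_self_pow₀ x1 (by omega)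
  have p3' : ∀ {i j : ℕ}, i + 1 ≤ j → 3 * x ^ i ≤ x ^ j := fun h => le_trans (by
    rw [pow_succ']; exact mul_le_mul_of_nonneg_right x3 (by positivity)) (pw h)
  have lf : ∀ i k : ℕ, i * k ≤ e3 * cL + e3 → T.LFd (m - 1) ((x ^ i) ^ k) ((x ^ i) ^ k) :=
    fun i k h => lfd_mono hT hR le_rfl (pp h) (pp h)
  have f4 : ∀ z c, |Z.F cl m f z c ()| ≤ exp (x ^ 4) := fun z c => by
    rw [abs_of_nonneg (P057GH.F_nonneg Z hf _ _ _)]
    refine (hF1 z c ()).trans (exp_le_exp.2 ?_)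
    rw [← mul_assoc, show x ^ 4 = x * x * x ^ 2 by ring]
    exact mul_le_mul_of_nonneg_right (mul_le_mul (cm s (by omega)) (by exact_mod_cast cm 17 (by omega))
      (by norm_num) (by linarith only [x1])) (sq_nonneg x)
  obtain ⟨ρ, H, u, a1, a2, a3, a4, a5, a6⟩ := hD N T C W E J cl m (b + 1) τ Z D f θ B κ σ (x ^ 4) hT
    hZ (kd_mono hK (px (by omega))) (hW.trans (px (by omega))) (hc'.trans (px (by omega)))
    ((cm cD (by omega)).trans (px (by omega))) t0 t4 f4 ((ex_le (pw (by omega))).trans hκ) hσ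
    (lf 4 cD (by omega)) h
  rw [← pow_mul] at a3 a5 a6
  have b0 : (cb J H : ℝ) ≤ exp (x ^ e2) := (cb_le hK.cj a3 (by positivity)).trans (exp_le_exp.2 (by
    have k1 := mul_le_mul_of_nonneg_left (add_le_add (px (show 1 ≤ 4 * cD + 1 by omega))
      (pw (show 4 * cD ≤ 4 * cD + 1 by omega))) (zero_le_one.trans x1)
    have k2 := p3' (show 4 * cD + 1 + 1 + 1 ≤ e2 by omega)
    rw [pow_succ' x (4 * cD + 1)] at k2
    linarith only [k1, k2, mul_nonneg (zero_le_one.trans x1) (pow_nonneg (zero_le_one.trans x1)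
      (4 * cD + 1))]))
  have q0 : (ρ.D.natAbs : ℝ) ≠ 0 := by simpa using a1.hD
  have q1 : (ρ.D.natAbs : ℝ) ≤ exp (x ^ e2) := le_trans (by
    rw [← Int.cast_natCast, Int.natCast_natAbs]; exact_mod_cast a1.hD') b0
  have cA : (Fintype.card (Fin ρ.t) : ℝ) ≤ x :=
    le_trans (by rw [Fintype.card_fin]; exact_mod_cast a1.ht) hK.cj
  have dg := fun a => dg_sum hK.dg fun j => (ρ.b a j : ℝ) / ρ.D.natAbs
  have eq : ∀ F a, (fun y => ρ.D.natAbs * sf D.X F (fun y => ∑ j, (ρ.b a j : ℝ) / ρ.D.natAbs *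
      D.Φ y j) y) = fun y => ∑ j, ρ.b a j * sf D.X F (fun y => D.Φ y j) y := fun F a =>
    funext fun y => by
      simp only [sf, alt_sum, mul_sum]
      exact sum_congr rfl fun j _ => by field_simp
  have b1 : Fintype.card J * (exp (x ^ (4 * cD)) * exp (x ^ 2)) ≤ exp (x ^ e3) := by
    refine (mul_le_mul_of_nonneg_right (hK.cj.trans ((le_add_of_nonneg_right zero_le_one).trans
      (add_one_le_exp x))) (by positivity)).trans ?_
    rw [← exp_add, ← exp_add]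
    refine exp_le_exp.2 ?_
    linarith only [px (show 1 ≤ e2 by omega), pw (show 4 * cD ≤ e2 by omega),
      pw (show 2 ≤ e2 by omega), p3' (show e2 + 1 ≤ e3 by omega)]
  have b2 : (x ^ e3) ^ 2 ≤ exp (x ^ e2) := by
    rw [← pow_mul, ← log_le_iff_le_exp (by positivity), log_pow]
    refine le_trans ?_ (pw (show 2 ≤ e2 by omega))
    rw [sq]
    exact mul_le_mul (cm _ (by omega)) ((log_le_sub_one_of_pos (by positivity)).trans
      (by linarith only)) (log_nonneg x1) (by linarith only [x1])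
  have rel : ∀ F, ∃ d₀ : ℕ, 0 < d₀ ∧ (d₀ : ℝ) ≤ exp ((x ^ e3) ^ cL) ∧ (F ∈ tops cl b →
      ∀ (d : ℕ) (lam Y' : ℝ), 0 < d → d₀ ∣ d → d * exp ((x ^ e3) ^ cL) ≤ lam → lam ≤ exp Y' →
      x ^ e3 ≤ Y' → Res (S0 T (VF F) m) (D.X.sy F) (fun a => sf D.X F fun y =>
        ∑ j, (ρ.b a j : ℝ) / ρ.D.natAbs * D.Φ y j) (tF F) τ d lam (Y' ^ cL)) := fun F => by
    by_cases k : F ∈ tops cl b
    swap
    · exact ⟨1, one_pos, by simpa using (by positivity), fun k' => (k k').elim⟩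
    obtain ⟨y1, y2, y3, y4, y5⟩ := hF s N T C W E cl m τ D.X x F hT hK.ok hK.sz hK.tf
    obtain ⟨d, z1, z2, z3⟩ := hL N T (VF F) _ (Fin ρ.t) m ρ.D.natAbs (D.X.sy F) (tF F) _
      (exp (-(3 * x ^ e2))) (x ^ e3) hT
      (by rw [Fintype.card_coe, card_fp, (mem_tops.1 k).1]; omega) y1 y2
      (sz_mono y3 (px (by omega))) y4 ((cm cL (by omega)).trans (px (by omega)))
      (cT.trans (exp_le_exp.2 (pw (by omega)))) (cA.trans (px (by omega))) (lf e3 cL (by omega))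
      (ex_le (p3' (by omega))) (exp_le_one_iff.2 (neg_nonpos.2 (by positivity)))
      ((fine y1.pd (one_le_pow₀ x1) (y3.cx.trans (exp_le_exp.2 (px (by omega))))).trans
        (add_le_add le_rfl (ex_le b2))) (Int.natAbs_pos.2 a1.hD)
      (q1.trans (exp_le_exp.2 (pw (by omega)))) fun a => ⟨y5 _ _ (dg a), by
        rw [eq]
        exact hat_sum (hH F k) (exp_pos _) _ (fun j => le_trans (by exact_mod_cast a1.hb a j) a3) b1
          (exp_le_exp.2 (pw (by omega))), fun w hw => by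
        have := hS N T C W E cl m b τ Z D.X D.n _ (x ^ e2) hT hZ hK.ok (sz_mono hK.sz (px (by omega)))
          hK.tf (dg_sum hK.dg (toR (ρ.b a))) hK.wn (hW.trans (px (by omega)))
          ((cm cS (by omega)).trans (px (by omega))) (lf e2 cS (by omega))
          (cor_mono (a6 a) (pw (by omega))) F k w hw
        rw [eq, show (fun y => ∑ j, ρ.b a j * sf D.X F (fun y => D.Φ y j) y) = sf D.X F fun y =>
          ∑ j, toR (ρ.b a) j * D.Φ y j from funext fun y => (alt_sum _ _ _ _ _).symm]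
        exact (mul_le_mul_of_nonneg_right (ex_le (pp (by omega)))
          (inv_nonneg.2 (sqrt_nonneg _))).trans this⟩
    exact ⟨d, z1, z2, fun _ => z3⟩
  choose d₀ d1 d2 d3 using rel
  have d4 : 0 < ∏ F ∈ tops cl b, d₀ F := prod_pos fun F _ => d1 F
  have d5 : (∏ F ∈ tops cl b, d₀ F : ℕ) * exp ((x ^ e3) ^ cL) ≤ exp (x ^ e4) := by
    have k1 : ((tops cl b).card : ℝ) ≤ x ^ (2 * s) := by
      refine le_trans (by exact_mod_cast card_tops (show b ≤ s by omega)) ((pow_le_pow_left₀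
        (by positivity) (show (Fintype.card W : ℝ) + 1 ≤ x ^ 2 by nlinarith only [hW, x3]) s).trans ?_)
      rw [pow_mul]
    rw [Nat.cast_prod]
    refine (mul_le_mul_of_nonneg_right ((prod_le_prod (fun F _ => Nat.cast_nonneg _)
      fun F _ => d2 F).trans_eq (prod_const _)) (exp_pos _).le).trans ?_
    rw [← exp_nat_mul, ← exp_add, ← pow_mul]
    have k2 := mul_le_mul_of_nonneg_right k1 (pow_nonneg (zero_le_one.trans x1) (e3 * cL))
    rw [← pow_add] at k2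
    refine exp_le_exp.2 ?_
    linarith only [k2, pw (show e3 * cL ≤ 2 * s + e3 * cL by omega),
      p3' (show 2 * s + e3 * cL + 1 ≤ e4 by omega), pow_nonneg (zero_le_one.trans x1) (e3 * cL)]
  have d6 : ∀ z, |Z.Ex0 cl m f θ z| ≤ exp (x ^ e5) := fun z => by
    refine (P057DR.abs_ex0 Z f4 t0 (by
      linarith only [t4, add_one_le_exp (x ^ 4), x3, px (show 1 ≤ 4 by omega)]) z).trans ?_
    have k1 := mul_le_mul_of_nonneg_right hc' (pow_nonneg (zero_le_one.trans x1) 4)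
    rw [← pow_succ'] at k1
    rw [← exp_nat_mul]
    refine (mul_le_mul_of_nonneg_right (show 2 ≤ exp 1 by linarith only [add_one_le_exp 1])
      (exp_pos _).le).trans ?_
    rw [← exp_add]
    refine exp_le_exp.2 ?_
    linarith only [k1, p3' (show 4 + 1 + 1 ≤ e5 by omega), one_le_pow₀ (n := 4 + 1) x1]
  obtain ⟨T', Z', B', κ', σ', g1, g2, g3, g4, g5, g6, g7, g8⟩ := hN' ρ.t _ Z
    (D.cut u ρ.K) _ (fun a => ρ.D.sign • ρ.w a) f θ _ _ _ _ la hT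
    (cx_mono hC fun e => pow_le_pow_right₀ (p1 e) (by omega)) hZ hb hm (kd_mono a4 (pw (by omega)))
    (hW.trans (px (by omega))) (cA.trans (px (by omega))) dg
    (fun a j => le_trans (by
      have := a1.hw a j
      rw [Pi.smul_apply, smul_eq_mul, ← Int.cast_abs, abs_mul, Int.abs_sign_of_ne_zero a1.hD, one_mul]
      exact_mod_cast this) (b0.trans (exp_le_exp.2 (pw (by omega)))))
    (fun k hk y => sel_eq ρ a1.hD hk.2 _) d4
    (le_mul_of_one_le_right (Nat.cast_nonneg _) (one_le_exp (by positivity)))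
    (d5.trans (exp_le_exp.2 (pw (by omega))))
    (fun F k => res_mono (d3 F k _ _ _ d4 (dvd_prod_of_mem _ k) le_rfl d5 (pw (by omega)))
      (pp (by omega))) d6 (exp_le_exp.2 (pw (by omega))) (ex_le (pw (by omega)))
    (ex_le (pw (by omega))) a5
  exact ⟨T', Z', B', κ', σ', g1, g2, g3, grow_mono g4 fc, g5.trans (exp_le_exp.2 fm),
    (ex_le fm).trans g6, (ex_le (fc 1)).trans g7, P057DW.ks_mono g8 le_rfl fm⟩

theorem round {s : ℕ} (hH : ∀ τ, HAT s τ) (hP : PULL) (hM : MORC s) (hR : REG s) (hD : DRP s)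
    (hS : SYM s) (hL : ∀ τ, REL s τ) (hN : ∀ τ, FIN s τ) : ROUND s := fun τ => by
  obtain ⟨a, h2⟩ := post hD syf hS (hL τ) (hN τ)
  obtain ⟨c1, k1, h1⟩ := pre (hH τ) hP hM hR syf a
  obtain ⟨c2, k2, h2⟩ := h2 (c1 + 2)
  refine ⟨c1 + c2 + 1, 2 * τ, fun N P T C W _ _ cl m b Z f θ B κ σ hL hT hC hZ hb hm hf t0 t4 hW hc
    hB hκ hσ h => ?_⟩
  have p3 : ∀ e, (3 : ℝ) ≤ P e := fun e =>
    le_trans (by exact_mod_cast (show 3 ≤ c1 + c2 + 1 by omega)) (hL.big e)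
  have fc : ∀ e, P e ^ c2 ≤ P e ^ (c1 + c2 + 1) := fun e =>
    pow_le_pow_right₀ (by linarith [p3 e]) (by omega)
  obtain ⟨T₁, Z₁, E, J, _, _, _, _, D, κ₁, σ₁, a1, a2, a3, a4, a5, a6, a7, a8, a9, a10⟩ :=
    h1 N P T C W cl m b Z f θ B κ σ (lad_mono hL (by exact_mod_cast (by omega))) hT hC hZ hb hm hW hB
      hκ hσ h
  obtain ⟨T', Z', B', κ', σ', g1, g2, g3, g4, g5, g6, g7, g8⟩ := h2 N P T₁ C W E J cl m b Z₁ D f θ B
    κ₁ σ₁ (lad_mono hL (by exact_mod_cast (by omega))) a1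
    (cx_pw (i := 1) p3 hL.anti (by simpa using hC) a4 (by omega)) (fun e he => by
      rw [up_dm a3 he, up_yy a3 N he]
      exact ⟨(hC e).1.trans (lad_le hL he), (hC e).2.trans (lad_le hL he)⟩)
    a2 hb hm hf t0 t4 hW hc a5 a6 a7 a8 a9 a10
  exact ⟨T', Z', B', κ', σ', g1, g2, up_trans g3 a3, grow_pw p3 a4 g4 le_rfl,
    g5.trans (exp_le_exp.2 (fc m)), (ex_le (fc m)).trans g6, (ex_le (fc 1)).trans g7,
    P057DW.ks_mono g8 le_rfl (fc m)⟩

end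

end Vale.Agent.P057DM
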